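import Vale.Agent.P181.H411.UFinal
import Vale.Agent.P181.H530.Alg
import Vale.Agent.P181.Z.H483.Bar

set_option autoImplicit false

/-!
P181, [Z]: glue of the upper bound for the kernel, the analysis and the growth of the kernel.
-/

namespace Vale.Agent.P181.H403.Asm

open Vale.Agent.P181 Vale.Agent.P181.H280 Vale.Agent.P181.Z463 Vale.Agent.P181.Z.H582
  Vale.Agent.P181.Z.H483 Vale.Agent.P181.H921.Z

/-- The upper bound for the kernel in the notation of the analysis half. -/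
theorem KH_le_NTs {n a b t : ℕ} (lam : Fin (n + 2) → ℕ) (ht : 2 * a + t ≤ b + 3)
    (htb : t ≤ b) :
    Module.finrank ℂ (KH a b (n + 2) lam) ≤
      (NTs (Lt a (n + 1)) (fun v => ∃ i : Fin n, v i.succ ≠ 0)
        (fun i => lam i.succ) t).ncard := by
  have h := H411.UB.kernel_le (n := n) lam ht htb
  refine (show Module.finrank ℂ (KH a b (n + 2) lam) ≤ _ from h).trans (le_of_eq ?_)
  congr 1
  ext M
  have key : ∀ v : Fin (n + 1) → ℕ, v ∈ Lt a (n + 1) ↔ (v ≠ 0 ∧ ∑ i, v i ≤ a) := by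
    intro v
    rw [mem_Lt]
    constructor
    · rintro ⟨h1, h2⟩
      refine ⟨?_, h2⟩
      rintro rfl
      simp at h1
    · rintro ⟨h1, h2⟩
      refine ⟨?_, h2⟩
      by_contra hc
      apply h1
      funext i
      have h3 : ∑ i, v i = 0 := by omega
      have h4 := (Finset.sum_eq_zero_iff.1 h3) i (Finset.mem_univ i)
      simpa using h4
  constructor
  · rintro ⟨h1, h2, h3⟩
    exact ⟨fun v hv => (key v).2 (h1 v hv), h2, h3⟩
  · rintro ⟨h1, h2, h3⟩
    exact ⟨fun v hv => (key v).1 (h1 v hv), h2, h3⟩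

/-- **Final glue.** -/
theorem foulkes_of_bounds {n a b t : ℕ} {P F : ℝ} (lam : Fin (n + 2) → ℕ)
    (ht : 2 * a + t ≤ b + 3) (htb : t ≤ b) (hP : 0 < P)
    (hA : P * ((NTs (Lt a (n + 1)) (fun v => ∃ i : Fin n, v i.succ ≠ 0)
        (fun i => lam i.succ) t).ncard : ℝ) ≤ F)
    (hB : F ≤ P * (Module.finrank ℂ (KH b a (n + 2) lam) : ℝ)) :
    plethMult a b (n + 2) lam ≤ plethMult b a (n + 2) lam := by
  apply H530.Alg.foulkes_of_ker
  refine (KH_le_NTs lam ht htb).trans ?_
  have h1 := le_of_mul_le_mul_left (hA.trans hB) hP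
  exact_mod_cast h1

end Vale.Agent.P181.H403.Asm
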