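import Vale.Agent.P181.H403.Z.Asm

set_option autoImplicit false

/-!
P181, [Z]: the core theorem from its leaves (all leaves as hypotheses).
-/

namespace Vale.Agent.P181.H403.Asm

open Vale.Agent.P181 Vale.Agent.P181.H280 Vale.Agent.P181.Z463 Vale.Agent.P181.Z.H582
  Vale.Agent.P181.Z.H483 Vale.Agent.P181.H921.Z

/-- The analysis. -/
def ANA (k : ℕ) : Prop := ∀ (E C0 : ℕ) (g : ℝ), 0 < g → g ≤ 1 → ∀ K : ℝ, 0 ≤ K →
  ∃ a0 : ℕ, ∀ a : ℕ, a0 ≤ a → ∀ N t : ℕ, (a : ℝ) ^ (1 + g) / 8 ≤ N → (N : ℝ) ≤ (a : ℝ) ^ 2 →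
    (a : ℝ) ^ (1 + g) / 2 ≤ t →
  ∀ m : Fin (k + 2) → ℝ, (∀ i, 0 < m i) → Antitone m →
    (a : ℝ) ^ (1 + g) / (8 * ((k : ℝ) + 3)) ≤ m 1 →
    ∏ i, max 1 (m i / a) ≤ (a : ℝ) ^ (1 + g / 16) →
  ∃ x : Fin (k + 2) → ℝ, (∀ i, 0 < x i) ∧ Monotone x ∧
    (∀ i, mean (Lt a (k + 2)) x i = m i - K * (a : ℝ) ^ (1 / 2 + g / 8) / x i) ∧ x 1 ≤ 1 ∧
    2 ≤ x 0 * (a : ℝ) ^ (1 + g / 8) ∧ 2 ≤ x 1 * (a : ℝ) ^ (1 / 2 + g / 16) ∧
    ∀ lam : Fin (k + 2) → ℕ,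
      ∑ i, x i * ((lam i : ℝ) - m i) ≤ x 1 * (a : ℝ) ^ (1 + g / 2) →
    ∀ (J : (Fin (k + 2) → ℕ) → Prop) [DecidablePred J],
      (∀ v, J v → ∃ j : Fin (k + 2), 1 ≤ j ∧ v j ≠ 0) →
    ∀ (f : (Fin (k + 2) → ℕ) → ℝ) (P : ℝ), 0 < P → P ≤ ((N * a + 1 : ℕ) : ℝ) ^ E →
      (∀ θ, f θ ≤ cnt (Lt a (k + 2)) N θ) →
      (∀ w, 0 < cnt (Lt a (k + 2)) N w → ∃ θ : Fin (k + 2) → ℕ,
        (∀ r : ℕ, ∑ i : Fin (k + 2), (if r ≤ (i : ℕ) then θ i else 0) ≤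
          ∑ i : Fin (k + 2), (if r ≤ (i : ℕ) then w i else 0)) ∧
        (cnt (Lt a (k + 2)) N w : ℝ) ≤ P * f θ) →
    ∃ θ : Fin (k + 2) → ℕ,
      (∀ i, |x i * (m i - θ i) - K * (a : ℝ) ^ (1 / 2 + g / 8)| <
        (a : ℝ) ^ (1 / 2 + g / 8)) ∧
      (a : ℝ) ^ C0 * ((NTs (Lt a (k + 2)) J lam t).ncard : ℝ) ≤ f θ

/-- The bridge. -/
def BRIDGE (h : ℕ) : Prop := ∀ E : ℕ, ∃ K : ℝ, 1 ≤ K ∧
  ∀ (e : Fin (h + 2) → ℕ), (∀ i, e i ≤ E) → ∀ (G a : ℕ), 2 ≤ G → ∀ (lam : Fin (h + 2) → ℕ),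
    Antitone lam → K * ((a : ℝ) + 3) < lam 1 → (∀ i, 0 < lam i) →
    ∀ c D : ℝ, 0 < D → K * D ≤ c →
    ∃ m : Fin (h + 2) → ℝ, (∀ i, 0 < m i) ∧ Antitone m ∧ (∀ i, m i ≤ lam i) ∧
      (∀ i, (lam i : ℝ) - m i ≤ K * ((a : ℝ) + 3)) ∧
      ∀ x : Fin (h + 2) → ℝ, (∀ i, 0 < x i) → Monotone x →
        (∀ i, mean (Lt a (h + 2)) x i = m i - c / x i) → (G : ℝ) * x 1 ≤ D →
        ∑ i, x i * ((lam i : ℝ) - m i) ≤ K * ((a : ℝ) + 3) * x 1 ∧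
        ∀ θ kap : Fin (h + 2) → ℕ, kap 0 ≤ a + 3 → kap 1 ≤ 2 →
          (∀ i : Fin (h + 2), 2 ≤ (i : ℕ) → kap i = 0) →
          (∀ i, |x i * (m i - θ i) - c| < D) →
          ∃ k nu : Fin (h + 2) → ℕ, k 0 = 0 ∧
            (∀ j, lam j = θ j + kap j + nu j + k j +
              ∑ i ∈ Finset.univ.filter (fun i => j ≤ i), e i * k i) ∧
            Antitone nu ∧ nu 1 + G ≤ nu 0 ∧
            ∀ i, (k i : ℝ) ≤ K * (D / x i + a + 3)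

/-- The element in the kernel. -/
def EQB (n : ℕ) : Prop := ∀ a : ℕ, 2 ≤ a → ∃ (κ : Fin (n + 3) → ℕ) (y : Pleth (a + 4) a (n + 3)),
  y ≠ 0 ∧ y ∈ KH (a + 4) a (n + 3) κ ∧ ∑ i, κ i = (a + 4) * a ∧ κ 1 ≤ a + 2 ∧ κ 2 ≤ 2 ∧
    ∀ i : Fin (n + 3), 3 ≤ (i : ℕ) → κ i = 0

/-- The Pieri steps and the run from `θ` to `lam`. -/
def WALL (n : ℕ) : Prop := ∃ (B c : ℕ → ℕ) (a1 : ℕ), ∀ a : ℕ, a1 ≤ a →
  ∀ {N b : ℕ} (κ : Fin (n + 3) → ℕ) (y : Pleth (a + 4) a (n + 3)),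
    y ∈ KH (a + 4) a (n + 3) κ → y ≠ 0 → ∑ i, κ i = (a + 4) * a →
  ∀ θ : Fin (n + 2) → ℕ, ∑ i, θ i ≤ N * a → ∀ lam : Fin (n + 2) → ℕ, ∑ i, lam i ≤ b * a →
    Antitone lam →
  ∀ k nu : Fin (n + 2) → ℕ, k 0 = 0 →
    (∀ j, lam j = θ j + κ j.succ + nu j + k j +
      ∑ i ∈ Finset.univ.filter (fun i => j ≤ i), c i * k i) →
    Antitone nu → nu 1 + ((n + 3) ^ 3 + 3) ≤ nu 0 →
  ∀ Bnu : ℕ, N + (a + 4) + Bnu + ∑ i : Fin (n + 2), k i * B i = b →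
    (n + 3) * nu 0 + 4 * (n + 3) ^ 2 * a ≤ (a - 1) * Bnu →
    fP N a θ ≤ ((b + 1 : ℕ) : ℝ) ^ ((n + 3) * (n + 1)) *
      (Module.finrank ℂ (KH b a (n + 3) (full b a lam)) : ℝ)

/-- Few cells: the number of marked letters is at most the number of cells in the marked
rows. -/
theorem card_filter_le {n : ℕ} (s : Multiset (Fin (n + 1) → ℕ)) :
    Multiset.card (s.filter fun v => ∃ i : Fin n, v i.succ ≠ 0) ≤
      ∑ i : Fin n, s.sum i.succ := by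
  induction s using Multiset.induction_on with
  | empty => simp
  | cons v s ih =>
    rw [Multiset.sum_cons]
    simp only [Pi.add_apply, Finset.sum_add_distrib]
    by_cases hv : ∃ i : Fin n, v i.succ ≠ 0
    · rw [Multiset.filter_cons_of_pos (p := fun v : Fin (n + 1) → ℕ => ∃ i : Fin n, v i.succ ≠ 0) s hv,
        Multiset.card_cons]
      obtain ⟨i, hi⟩ := hv
      have h1 : v i.succ ≤ ∑ i : Fin n, v i.succ :=
        Finset.single_le_sum (f := fun i : Fin n => v i.succ) (fun _ _ => Nat.zero_le _)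
          (Finset.mem_univ i)
      omega
    · rw [Multiset.filter_cons_of_neg (p := fun v : Fin (n + 1) → ℕ => ∃ i : Fin n, v i.succ ≠ 0) s hv]
      omega

/-- algebra of the numbers -/
theorem numAlg {n Bs K M A u : ℝ} (hn : 0 ≤ n) (hBs : 0 ≤ Bs) (hK : 1 ≤ K)
    (hM : M = 64 * (n + 3) ^ 2 * (Bs + 1) * K) (hu : M ≤ u) (hA : M + 100 ≤ A) :
    n + 3 ≤ A ∧ 8 ≤ A * (u * u) / 8 ∧ 4 * A ≤ A * (u * u) / 2 ∧
      16 * (n + 3) * (K * (A + 3)) ≤ A * (u * u) ∧ K * (A + 3) ≤ A * u ∧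
      Bs * (K * (A * u + A + 3)) ≤ A * (u * u) / 8 ∧ A + 4 ≤ A * (u * u) / 8 ∧
      (n + 3) * (A ^ 2 * u) + 4 * (n + 3) ^ 2 * A ≤ (A - 1) * (A * (u * u) / 2) := by
  have q1 : (9 : ℝ) ≤ (n + 3) ^ 2 := by nlinarith
  have q2 : n + 3 ≤ (n + 3) ^ 2 := by nlinarith
  have q3 : (1 : ℝ) ≤ (Bs + 1) * K := by nlinarith
  have hM1 : 64 * 9 ≤ M := by
    calc (64 : ℝ) * 9 = 64 * 9 * 1 := by ring
      _ ≤ 64 * (n + 3) ^ 2 * ((Bs + 1) * K) := by gcongr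
      _ = M := by rw [hM]; ring
  have m1 : 64 * (n + 3) * K ≤ M := by
    rw [hM]
    calc 64 * (n + 3) * K = 64 * (n + 3) * 1 * K := by ring
      _ ≤ 64 * (n + 3) ^ 2 * (Bs + 1) * K := by
        gcongr
        linarith
  have m2 : 64 * Bs * K ≤ M := by
    rw [hM]
    calc 64 * Bs * K = 64 * 1 * Bs * K := by ring
      _ ≤ 64 * (n + 3) ^ 2 * (Bs + 1) * K := by
        gcongr
        · linarith
        · linarith
  have m3 : 64 * (n + 3) ^ 2 ≤ M := by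
    rw [hM]
    calc 64 * (n + 3) ^ 2 = 64 * (n + 3) ^ 2 * 1 := by ring
      _ ≤ 64 * (n + 3) ^ 2 * ((Bs + 1) * K) := by gcongr
      _ = _ := by ring
  have m4 : 64 * K ≤ M := by
    refine le_trans ?_ m1
    have : 64 * 1 * K ≤ 64 * (n + 3) * K := by
      gcongr
      linarith
    linarith
  have hA0 : 0 < A := by linarith
  have hu0 : 0 < u := by linarith
  have hX1 : A ≤ A * u := le_mul_of_one_le_right hA0.le (by linarith)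
  have hZ1 : M * (A * u) ≤ A * (u * u) := by
    calc M * (A * u) ≤ u * (A * u) := by gcongr
      _ = A * (u * u) := by ring
  obtain ⟨X, hX⟩ : ∃ X, X = A * u := ⟨_, rfl⟩
  obtain ⟨Z, hZ⟩ : ∃ Z, Z = A * (u * u) := ⟨_, rfl⟩
  have hX0 : 0 < X := by rw [hX]; positivity
  have hXA : A ≤ X := by rw [hX]; exact hX1
  have hZX : M * X ≤ Z := by rw [hX, hZ]; exact hZ1
  have hZ2 : 64 * 9 * X ≤ Z := (mul_le_mul_of_nonneg_right hM1 hX0.le).trans hZX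
  have eAX : A ^ 2 * u = A * X := by rw [hX]; ring
  rw [eAX, ← hZ, ← hX]
  refine ⟨?_, by linarith, by linarith, ?_, ?_, ?_, by linarith, ?_⟩
  · linarith
  · calc 16 * (n + 3) * (K * (A + 3)) ≤ 16 * (n + 3) * (K * (4 * X)) := by
          gcongr
          linarith
      _ = 64 * (n + 3) * K * X := by ring
      _ ≤ M * X := by gcongr
      _ ≤ _ := hZX
  · calc K * (A + 3) ≤ K * (64 * A) := by
          gcongr
          linarith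
      _ = A * (64 * K) := by ring
      _ ≤ A * u := by
        gcongr
        linarith
      _ = X := hX.symm
  · calc Bs * (K * (X + A + 3)) ≤ Bs * (K * (8 * X)) := by
          gcongr
          linarith
      _ = 64 * Bs * K * X / 8 := by ring
      _ ≤ M * X / 8 := by gcongr
      _ ≤ _ := by linarith
  · have e5 : A / 2 ≤ A - 1 := by linarith
    have e7 : 0 < Z := by linarith
    calc (n + 3) * (A * X) + 4 * (n + 3) ^ 2 * A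
        ≤ (n + 3) ^ 2 * (A * X) + 4 * (n + 3) ^ 2 * (A * X) := by
          gcongr
          exact le_mul_of_one_le_right hA0.le (by linarith)
      _ = 64 * (n + 3) ^ 2 * (5 / 64) * (A * X) := by ring
      _ ≤ M * (1 / 4) * (A * X) :=
          mul_le_mul_of_nonneg_right (by linarith) (by positivity)
      _ = A * (M * X) / 4 := by ring
      _ ≤ A * Z / 4 := by gcongr
      _ = A / 2 * (Z / 2) := by ring
      _ ≤ (A - 1) * (Z / 2) := by gcongr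

/-- numbers -/
theorem numbers (n Bs : ℕ) (K : ℝ) (hK : 1 ≤ K) {g : ℝ} (hg : 0 < g) (hg1 : g ≤ 1) :
    ∃ a0 : ℕ, ∀ a : ℕ, a0 ≤ a → 1 ≤ a ∧
      (n : ℝ) + 3 ≤ a ∧ (((n + 3) ^ 3 + 3 : ℕ) : ℝ) ≤ (a : ℝ) ^ (1 / 2 + g / 8) ∧
      8 ≤ (a : ℝ) ^ (1 + g) / 8 ∧
      4 * (a : ℝ) ≤ (a : ℝ) ^ (1 + g) / 2 ∧
      16 * ((n : ℝ) + 3) * (K * ((a : ℝ) + 3)) ≤ (a : ℝ) ^ (1 + g) ∧
      K * ((a : ℝ) + 3) ≤ (a : ℝ) ^ (1 + g / 2) ∧
      (Bs : ℝ) * (K * ((a : ℝ) ^ (1 / 2 + g / 8) * (a : ℝ) ^ (1 / 2 + g / 16) + a + 3)) ≤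
        (a : ℝ) ^ (1 + g) / 8 ∧
      (a : ℝ) + 4 ≤ (a : ℝ) ^ (1 + g) / 8 ∧
      ((n : ℝ) + 3) * (a : ℝ) ^ (2 + g / 2) + 4 * ((n : ℝ) + 3) ^ 2 * a ≤
        ((a : ℝ) - 1) * ((a : ℝ) ^ (1 + g) / 2) ∧
      (a : ℝ) ^ (1 + g) ≤ (a : ℝ) ^ 2 := by
  have h1 : Filter.Tendsto (fun x : ℝ => x ^ (g / 2)) Filter.atTop Filter.atTop :=
    tendsto_rpow_atTop (by positivity)
  have h2 : Filter.Tendsto (fun x : ℝ => x ^ (1 / 2 : ℝ)) Filter.atTop Filter.atTop :=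
    tendsto_rpow_atTop (by norm_num)
  obtain ⟨M, hM⟩ : ∃ M : ℝ, M = 64 * ((n : ℝ) + 3) ^ 2 * (Bs + 1) * K := ⟨_, rfl⟩
  obtain ⟨G, hG⟩ : ∃ G : ℝ, G = (((n + 3) ^ 3 + 3 : ℕ) : ℝ) := ⟨_, rfl⟩
  have h3 := (h1.eventually_ge_atTop M).and
    ((h2.eventually_ge_atTop G).and (Filter.eventually_ge_atTop (M + 100)))
  have h4 := tendsto_natCast_atTop_atTop (R := ℝ) |>.eventually h3
  obtain ⟨a0, ha0⟩ := Filter.eventually_atTop.1 h4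
  refine ⟨max a0 1, fun a ha => ?_⟩
  have ha1 : 1 ≤ a := (le_max_right _ _).trans ha
  obtain ⟨hu, hr, hA⟩ := ha0 a ((le_max_left _ _).trans ha)
  have hn : (0 : ℝ) ≤ n := Nat.cast_nonneg n
  have hBs : (0 : ℝ) ≤ Bs := Nat.cast_nonneg Bs
  have hA1 : (1 : ℝ) ≤ a := by exact_mod_cast ha1
  rw [← hG]
  obtain ⟨A, hAdef⟩ : ∃ A : ℝ, A = (a : ℝ) := ⟨_, rfl⟩
  rw [← hAdef] at hu hr hA hA1 ⊢
  have hA0 : 0 < A := by linarith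
  obtain ⟨u, hudef⟩ : ∃ u : ℝ, u = A ^ (g / 2) := ⟨_, rfl⟩
  rw [← hudef] at hu
  have eT : A ^ (1 + g) = A * (u * u) := by
    rw [hudef, ← Real.rpow_add hA0, show g / 2 + g / 2 = g by ring, Real.rpow_add hA0,
      Real.rpow_one]
  have eT1 : A ^ (1 + g / 2) = A * u := by
    rw [Real.rpow_add hA0, Real.rpow_one, hudef]
  have eT2 : A ^ (2 + g / 2) = A ^ 2 * u := by
    rw [Real.rpow_add hA0, hudef]
    norm_num
  have eD : A ^ (1 / 2 + g / 8) * A ^ (1 / 2 + g / 16) ≤ A * u := by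
    rw [← Real.rpow_add hA0, ← eT1]
    exact Real.rpow_le_rpow_of_exponent_le hA1 (by linarith)
  have eD1 : A ^ (1 / 2 : ℝ) ≤ A ^ (1 / 2 + g / 8) :=
    Real.rpow_le_rpow_of_exponent_le hA1 (by linarith)
  have eTT : A ^ (1 + g) ≤ A ^ 2 := by
    have := Real.rpow_le_rpow_of_exponent_le hA1 (show 1 + g ≤ 2 by linarith)
    simpa using this
  obtain ⟨n1, n2, n3, n4, n5, n6, n7, n8⟩ := numAlg hn hBs hK hM hu hA
  refine ⟨ha1, n1, hr.trans eD1, ?_, ?_, ?_, ?_, ?_, ?_, ?_, eTT⟩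
  · rw [eT]; exact n2
  · rw [eT]; exact n3
  · rw [eT]; exact n4
  · rw [eT1]; exact n5
  · rw [eT]
    refine le_trans ?_ n6
    gcongr
  · rw [eT]; exact n7
  · rw [eT, eT2]; exact n8

end Vale.Agent.P181.H403.Asm
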