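import Vale.Agent.P181.H403.Z.Asm2

set_option autoImplicit false

/-!
P181, [Z]: the core theorem from its leaves.
-/

namespace Vale.Agent.P181.H403.Asm

open Vale.Agent.P181 Vale.Agent.P181.H280 Vale.Agent.P181.Z463 Vale.Agent.P181.Z.H582
  Vale.Agent.P181.Z.H483 Vale.Agent.P181.H921.Z

/-- **The core theorem from its leaves.** -/
theorem core_of {n : ℕ} (hAna : ANA n) (hBr : BRIDGE n) (hE : EQB n) (hWall : WALL n) {g : ℝ}
    (hg : 0 < g) (hg1 : g ≤ 1) :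
    ∃ a0 : ℕ, ∀ a : ℕ, a0 ≤ a → ∀ b : ℕ, (a : ℝ) ^ (1 + g) ≤ b → b + 1 ≤ a ^ 2 →
      ∀ lam : Fin (n + 3) → ℕ, Antitone lam → (∀ i, 0 < lam i) → ∑ i, lam i = b * a →
      ∏ i : Fin (n + 2), max 1 ((lam i.succ : ℝ) / a) ≤ (a : ℝ) ^ (1 + g / 16) →
      (lam 1 : ℝ) ≤ (a : ℝ) ^ (2 + g / 2) →
      plethMult a b (n + 3) lam ≤ plethMult b a (n + 3) lam := by
  classical
  obtain ⟨B, c, a1, hW⟩ := hWall
  obtain ⟨K, hK1, hBr⟩ := hBr (∑ i ∈ Finset.range (n + 2), c i)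
  obtain ⟨a2, hA⟩ := hAna ((n + 3) * (n + 3)) (2 * ((n + 3) * (n + 1))) g hg hg1 K (by linarith)
  obtain ⟨a3, hN⟩ := numbers n (∑ i : Fin (n + 2), B i) K hK1 hg hg1
  refine ⟨max (a1 + 2) (max a2 a3), fun a ha b hb hb2 lam hanti hpos hsum hprod hlam => ?_⟩
  have ha1 : a1 ≤ a := by have := (le_max_left (a1 + 2) (max a2 a3)).trans ha; omega
  have ha2' : 2 ≤ a := by have := (le_max_left (a1 + 2) (max a2 a3)).trans ha; omega
  have ha2 : a2 ≤ a := ((le_max_left a2 a3).trans (le_max_right (a1 + 2) _)).trans ha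
  have ha3 : a3 ≤ a := ((le_max_right a2 a3).trans (le_max_right (a1 + 2) _)).trans ha
  obtain ⟨h1a, num1, num2, num3, num4, num5, num6, num7, num8, num9, num10⟩ := hN a ha3
  have haR : (1 : ℝ) ≤ a := by exact_mod_cast h1a
  have ha0 : (0 : ℝ) < a := by linarith
  -- `b` is large
  have hbig : 8 * (a : ℝ) ≤ b := by linarith
  have hbigN : 8 * a ≤ b := by exact_mod_cast hbig
  obtain ⟨t, ht⟩ : ∃ t : ℕ, t = b + 3 - 2 * a := ⟨_, rfl⟩
  have ht1 : 2 * a + t ≤ b + 3 := by omega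
  have ht2 : t ≤ b := by omega
  have htR : (a : ℝ) ^ (1 + g) / 2 ≤ t := by
    have h1 : (b : ℝ) - 2 * a ≤ t := by
      have : b ≤ t + 2 * a := by omega
      have h2 : (b : ℝ) ≤ t + 2 * a := by exact_mod_cast this
      linarith
    linarith
  obtain ⟨lamb, hlamb⟩ : ∃ lamb : Fin (n + 2) → ℕ, lamb = fun i => lam i.succ := ⟨_, rfl⟩
  have hlb : ∀ i, lamb i = lam i.succ := fun i => by rw [hlamb]
  have hantib : Antitone lamb := fun i j hij => by
    rw [hlb, hlb]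
    exact hanti (Fin.succ_le_succ_iff.2 hij)
  have hposb : ∀ i, 0 < lamb i := fun i => by rw [hlb]; exact hpos _
  have hKH := KH_le_NTs (n := n + 1) (a := a) (b := b) lam ht1 ht2
  rw [← hlamb] at hKH
  by_cases hNt : (NTs (Lt a (n + 2)) (fun v => ∃ i : Fin (n + 1), v i.succ ≠ 0) lamb t).ncard = 0
  · apply H530.Alg.foulkes_of_ker
    exact hKH.trans (by rw [hNt]; exact Nat.zero_le _)
  obtain ⟨s, hs⟩ := Set.nonempty_of_ncard_ne_zero hNt
  have ht3 : t ≤ ∑ i : Fin (n + 1), lamb i.succ := by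
    have h1 := hs.2.2.trans (card_filter_le s)
    rwa [hs.2.1] at h1
  have ht4 : t ≤ (n + 1) * lamb 1 := by
    refine ht3.trans ?_
    calc ∑ i : Fin (n + 1), lamb i.succ ≤ ∑ _i : Fin (n + 1), lamb 1 := by
          refine Finset.sum_le_sum fun i _ => hantib ?_
          rw [Fin.le_def]
          simp
      _ = (n + 1) * lamb 1 := by simp
  have ht5 : (a : ℝ) ^ (1 + g) / 2 ≤ ((n : ℝ) + 1) * lamb 1 := by
    have : (t : ℝ) ≤ ((n : ℝ) + 1) * lamb 1 := by exact_mod_cast ht4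
    linarith
  have hn0 : (0 : ℝ) ≤ n := Nat.cast_nonneg n
  have ht6 : (a : ℝ) ^ (1 + g) / (2 * ((n : ℝ) + 3)) ≤ lamb 1 := by
    rw [div_le_iff₀ (by positivity)]
    have h1 : (0 : ℝ) ≤ lamb 1 := Nat.cast_nonneg _
    nlinarith
  have hKa : K * ((a : ℝ) + 3) ≤ (a : ℝ) ^ (1 + g) / (16 * ((n : ℝ) + 3)) := by
    rw [le_div_iff₀ (by positivity)]
    linarith
  have hT0 : 0 < (a : ℝ) ^ (1 + g) := by positivity
  have hfr : (a : ℝ) ^ (1 + g) / (16 * ((n : ℝ) + 3)) ≤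
      (a : ℝ) ^ (1 + g) / (2 * ((n : ℝ) + 3)) - (a : ℝ) ^ (1 + g) / (8 * ((n : ℝ) + 3)) := by
    have h1 : (a : ℝ) ^ (1 + g) / (2 * ((n : ℝ) + 3)) - (a : ℝ) ^ (1 + g) / (8 * ((n : ℝ) + 3)) =
        6 * ((a : ℝ) ^ (1 + g) / (16 * ((n : ℝ) + 3))) := by
      field_simp
      ring
    rw [h1]
    have h2 : 0 ≤ (a : ℝ) ^ (1 + g) / (16 * ((n : ℝ) + 3)) := by positivity
    linarith
  have hfr2 : (0 : ℝ) ≤ (a : ℝ) ^ (1 + g) / (8 * ((n : ℝ) + 3)) := by positivity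
  have hlam1 : K * ((a : ℝ) + 3) < lamb 1 := by
    have : (0 : ℝ) < (a : ℝ) ^ (1 + g) / (8 * ((n : ℝ) + 3)) := by positivity
    linarith
  -- the bridge
  obtain ⟨D, hD⟩ : ∃ D : ℝ, D = (a : ℝ) ^ (1 / 2 + g / 8) := ⟨_, rfl⟩
  have hD0 : 0 < D := by rw [hD]; positivity
  obtain ⟨m, hm0, hmanti, hmle, hmge, hbr⟩ := hBr (fun i => c i)
    (fun i => Finset.single_le_sum (f := fun i => c i) (fun _ _ => Nat.zero_le _)
      (Finset.mem_range.2 i.2)) ((n + 3) ^ 3 + 3) a (by omega) lamb hantib hlam1 hposb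
    (K * D) D hD0 le_rfl
  -- the analysis
  obtain ⟨N, hNdef⟩ : ∃ N : ℕ, N = ⌈(a : ℝ) ^ (1 + g) / 8⌉₊ := ⟨_, rfl⟩
  have hN1 : (a : ℝ) ^ (1 + g) / 8 ≤ N := by rw [hNdef]; exact Nat.le_ceil _
  have hN2 : (N : ℝ) ≤ (a : ℝ) ^ (1 + g) / 8 + 1 := by
    rw [hNdef]
    exact (Nat.ceil_lt_add_one (by positivity)).le
  have hN3 : (N : ℝ) ≤ (a : ℝ) ^ 2 := by linarith
  obtain ⟨x, hx0, hxmono, hxmean, hx1, hx0b, hx1b, hx⟩ := hA a ha2 N t hN1 hN3 htR m hm0 hmanti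
    (by have := hmge 1; linarith) (by
      refine le_trans ?_ hprod
      refine Finset.prod_le_prod (fun i _ => le_trans zero_le_one (le_max_left _ _)) fun i _ => ?_
      refine max_le_max le_rfl ?_
      have h1 := hmle i
      rw [hlb] at h1
      gcongr)
  rw [← hD] at hxmean
  obtain ⟨hprice, hbr2⟩ := hbr x hx0 hxmono hxmean (by
    have h1 : (((n + 3) ^ 3 + 3 : ℕ) : ℝ) * x 1 ≤ (((n + 3) ^ 3 + 3 : ℕ) : ℝ) * 1 := by gcongr
    rw [hD]
    linarith)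
  obtain ⟨θ, hθ, hNtf⟩ := hx lamb (by
      refine hprice.trans ?_
      rw [mul_comm]
      exact mul_le_mul_of_nonneg_left num6 (hx0 1).le)
    (fun v => ∃ i : Fin (n + 1), v i.succ ≠ 0)
    (fun v ⟨i, hi⟩ => ⟨i.succ, by rw [Fin.le_def]; simp, hi⟩) (fP N a)
    (((N * a + 1 : ℕ) : ℝ) ^ ((n + 3) * (n + 3))) (by positivity) le_rfl
    (fun θ => fP_le N a θ) (fun w hw => exists_fP N a w hw)
  rw [← hD] at hθ
  -- the kernel element
  obtain ⟨κ, y, hy0, hy, hκs, hκ1, hκ2, hκ3⟩ := hE a ha2'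
  obtain ⟨k, nu, hk0, hdec, hnuanti, hnu, hk⟩ := hbr2 θ (fun i => κ i.succ)
    (by
      have : κ (Fin.succ (0 : Fin (n + 2))) = κ 1 := rfl
      rw [this]; omega)
    (by
      have : κ (Fin.succ (1 : Fin (n + 2))) = κ 2 := by congr 1
      rw [this]; exact hκ2)
    (fun i hi => hκ3 _ (by
      rw [Fin.val_succ]
      omega)) hθ
  -- the sum of `θ`
  have hNtpos : (0 : ℝ) < ((NTs (Lt a (n + 2)) (fun v => ∃ i : Fin (n + 1), v i.succ ≠ 0)
      lamb t).ncard : ℝ) := by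
    exact_mod_cast Nat.pos_of_ne_zero hNt
  have hfpos : 0 < fP N a θ := lt_of_lt_of_le (by positivity) hNtf
  have hθsum : ∑ i, θ i ≤ N * a := by
    by_contra hcon
    rw [fP, if_neg hcon] at hfpos
    exact lt_irrefl _ hfpos
  -- the budget
  have hkB : ((∑ i : Fin (n + 2), k i * B i : ℕ) : ℝ) ≤ (a : ℝ) ^ (1 + g) / 8 := by
    refine le_trans ?_ num7
    push_cast
    rw [Finset.sum_mul]
    refine Finset.sum_le_sum fun i _ => ?_
    rw [mul_comm]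
    refine mul_le_mul_of_nonneg_left ?_ (Nat.cast_nonneg _)
    by_cases hi : i = 0
    · rw [hi, hk0]
      have : (0 : ℝ) ≤ K * ((a : ℝ) ^ (1 / 2 + g / 8) * (a : ℝ) ^ (1 / 2 + g / 16) + a + 3) := by
        positivity
      simpa using this
    · refine (hk i).trans ?_
      have h1i : (1 : Fin (n + 2)) ≤ i := by
        rw [Fin.le_def]
        have : (i : ℕ) ≠ 0 := fun h => hi (Fin.ext h)
        simpa using Nat.one_le_iff_ne_zero.2 this
      have hxi := hxmono h1i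
      have h2 : D / x i ≤ (a : ℝ) ^ (1 / 2 + g / 8) * (a : ℝ) ^ (1 / 2 + g / 16) := by
        rw [← hD, div_le_iff₀ (hx0 i)]
        have h3 : 1 ≤ (a : ℝ) ^ (1 / 2 + g / 16) * x i := by
          have h4 : x 1 * (a : ℝ) ^ (1 / 2 + g / 16) ≤ x i * (a : ℝ) ^ (1 / 2 + g / 16) := by
            gcongr
          linarith
        calc D = D * 1 := by ring
          _ ≤ D * ((a : ℝ) ^ (1 / 2 + g / 16) * x i) := by gcongr
          _ = _ := by ring
      gcongr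
  have hSle : N + (a + 4) + ∑ i : Fin (n + 2), k i * B i ≤ b := by
    have h1 : ((N + (a + 4) + ∑ i : Fin (n + 2), k i * B i : ℕ) : ℝ) ≤ b := by
      rw [Nat.cast_add, Nat.cast_add, Nat.cast_add]
      have : ((4 : ℕ) : ℝ) = 4 := by norm_num
      rw [this]
      linarith
    exact_mod_cast h1
  obtain ⟨Bnu, hBnu⟩ : ∃ Bnu : ℕ, N + (a + 4) + Bnu + ∑ i : Fin (n + 2), k i * B i = b :=
    ⟨b - (N + (a + 4) + ∑ i : Fin (n + 2), k i * B i), by omega⟩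
  have hBnuR : (a : ℝ) ^ (1 + g) / 2 ≤ Bnu := by
    have h1 : ((N + (a + 4) + Bnu + ∑ i : Fin (n + 2), k i * B i : ℕ) : ℝ) = b := by
      exact_mod_cast hBnu
    rw [Nat.cast_add, Nat.cast_add, Nat.cast_add, Nat.cast_add] at h1
    have : ((4 : ℕ) : ℝ) = 4 := by norm_num
    rw [this] at h1
    linarith
  have hcart : (n + 3) * nu 0 + 4 * (n + 3) ^ 2 * a ≤ (a - 1) * Bnu := by
    have h1 : nu 0 ≤ lam 1 := by
      have h2 := hdec 0
      have h3 : lamb 0 = lam 1 := by rw [hlb]; rfl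
      rw [h3] at h2
      omega
    have h2 : (nu 0 : ℝ) ≤ (a : ℝ) ^ (2 + g / 2) := by
      refine le_trans ?_ hlam
      exact_mod_cast h1
    have h3 : ((n : ℝ) + 3) * nu 0 + 4 * ((n : ℝ) + 3) ^ 2 * a ≤ ((a : ℝ) - 1) * Bnu := by
      have h4 : ((n : ℝ) + 3) * nu 0 ≤ ((n : ℝ) + 3) * (a : ℝ) ^ (2 + g / 2) := by gcongr
      have h5 : ((a : ℝ) - 1) * ((a : ℝ) ^ (1 + g) / 2) ≤ ((a : ℝ) - 1) * Bnu :=
        mul_le_mul_of_nonneg_left hBnuR (by linarith)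
      linarith
    have h6 : (((n + 3) * nu 0 + 4 * (n + 3) ^ 2 * a : ℕ) : ℝ) ≤ (((a - 1) * Bnu : ℕ) : ℝ) := by
      push_cast [Nat.cast_sub h1a]
      exact h3
    exact_mod_cast h6
  have hlbsum : ∑ i, lamb i ≤ b * a := by
    rw [Fin.sum_univ_succ] at hsum
    have : ∑ i, lamb i = ∑ i : Fin (n + 2), lam i.succ :=
      Finset.sum_congr rfl fun i _ => hlb i
    omega
  have hfin := hW a ha1 (N := N) (b := b) κ y hy hy0 hκs θ hθsum lamb hlbsum hantib k nu hk0 hdec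
    hnuanti hnu Bnu hBnu hcart
  have hfull : full b a lamb = lam := by
    unfold full up
    funext i
    refine Fin.cases ?_ (fun i => ?_) i
    · rw [Fin.cons_zero]
      rw [Fin.sum_univ_succ] at hsum
      have : ∑ i, lamb i = ∑ i : Fin (n + 2), lam i.succ := by
        refine Finset.sum_congr rfl fun i _ => hlb i
      omega
    · rw [Fin.cons_succ, hlb]
  rw [hfull] at hfin
  have hpow : ((b + 1 : ℕ) : ℝ) ^ ((n + 3) * (n + 1)) ≤ (a : ℝ) ^ (2 * ((n + 3) * (n + 1))) := by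
    rw [pow_mul (a : ℝ) 2]
    refine pow_le_pow_left₀ (by positivity) ?_ _
    exact_mod_cast hb2
  refine foulkes_of_bounds (n := n + 1) (P := (a : ℝ) ^ (2 * ((n + 3) * (n + 1))))
    (F := fP N a θ) lam ht1 ht2 (by positivity) ?_ ?_
  · rw [← hlamb]
    exact hNtf
  · refine hfin.trans ?_
    exact mul_le_mul_of_nonneg_right hpow (Nat.cast_nonneg _)

end Vale.Agent.P181.H403.Asm
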