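import Vale.Agent.P181.H403.Z.Asm3
import Vale.Agent.P181.Z.H483.Bridge
import Vale.Agent.P181.Z.H235.Ana
import Vale.Agent.P181.Z.H582.Wall
import Vale.Agent.P181.Z.H463.Anti
import Vale.Agent.P181.H530.PieH3

set_option autoImplicit false

/-!
P181, [Z]: the core theorem.
-/

namespace Vale.Agent.P181.H403.Asm

open Vale.Agent.P181 Vale.Agent.P181.H280 Vale.Agent.P181.Z463 Vale.Agent.P181.Z.H582
  Vale.Agent.P181.Z.H483 Vale.Agent.P181.H921.Z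

theorem ana_leaf (n : ℕ) : ANA n := fun E C0 _ hg _ K hK => Z.H235.ana n E C0 hg K hK

theorem bridge_leaf (h : ℕ) : BRIDGE h := fun E => Z.H483.bridge h E

theorem eqb_leaf (n : ℕ) : EQB n := fun a ha => by
  obtain ⟨κ, y, h1, h2, -, h4, h5, h6, h7⟩ := exists_eqC n a ha
  exact ⟨κ, y, h1, h2, h4, by omega, h6, h7⟩

theorem sum_Ico_fin (m l : ℕ) (f : ℕ → ℕ) :
    ∑ i ∈ Finset.Ico l m, f i = ∑ i : Fin m, if l ≤ (i : ℕ) then f i else 0 := by
  rw [Fin.sum_univ_eq_sum_range (fun i => if l ≤ i then f i else 0) m, ← Finset.sum_filter]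
  congr 1
  ext i
  rw [Finset.mem_Ico, Finset.mem_filter, Finset.mem_range]
  exact and_comm

theorem wall_leaf (n : ℕ) : WALL n := by
  obtain ⟨B, c, a1, h⟩ := H530.KHI.pieH n
  refine ⟨B, c, max a1 (n + 3), fun a ha N b κ y hy hy0 hκs θ hθ lam hlam hanti k nu hk0 hdec
    hnuanti hnu Bnu hbud hcart => ?_⟩
  obtain ⟨h1, h2⟩ := h a ((le_max_left _ _).trans ha)
  have ha3 : n + 3 ≤ a := (le_max_right _ _).trans ha
  obtain ⟨kN, hkN⟩ : ∃ kN : ℕ → ℕ, ∀ j : Fin (n + 2), kN j = k j :=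
    ⟨fun j => if hj : j < n + 2 then k ⟨j, hj⟩ else 0, fun j => by simp⟩
  obtain ⟨nN, hnN⟩ : ∃ nN : ℕ → ℕ, ∀ j : Fin (n + 2), nN j = nu j :=
    ⟨fun j => if hj : j < n + 2 then nu ⟨j, hj⟩ else 0, fun j => by simp⟩
  have hkN0 : kN 0 = 0 := by
    have := hkN 0
    rw [hk0] at this
    simpa using this
  refine wall_run (e := a + 4) B c h1 h2 ha3 κ y hy hy0 (by rw [hκs]; ring) θ hθ lam hlam hanti
    kN nN hkN0 (fun l => ?_) (fun l hl => ?_) ?_ Bnu ?_ ?_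
  · rw [hdec l, hkN, hnN, sum_Ico_fin, Finset.sum_filter]
    congr 1
    refine Finset.sum_congr rfl fun i _ => ?_
    rw [hkN]
    by_cases hli : l ≤ i
    · rw [if_pos hli, if_pos (Fin.le_def.1 hli)]
    · rw [if_neg hli, if_neg (fun h => hli (Fin.le_def.2 h))]
  · have e1 := hnN ⟨l, by omega⟩
    have e2 := hnN ⟨l + 1, hl⟩
    rw [show nN l = nu ⟨l, by omega⟩ from e1, show nN (l + 1) = nu ⟨l + 1, hl⟩ from e2]
    exact hnuanti (Fin.le_def.2 (Nat.le_succ l))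
  · have e0 := hnN 0
    have e1 := hnN 1
    have v0 : ((0 : Fin (n + 2)) : ℕ) = 0 := rfl
    have v1 : ((1 : Fin (n + 2)) : ℕ) = 1 := rfl
    rw [v0] at e0
    rw [v1] at e1
    rw [e0, e1]
    exact hnu
  · rw [← hbud]
    congr 1
    rw [sum_Ico_fin]
    refine Finset.sum_congr rfl fun i _ => ?_
    rw [hkN]
    by_cases hi : 1 ≤ (i : ℕ)
    · rw [if_pos hi]
    · rw [if_neg hi]
      have : i = 0 := Fin.ext (by
        have v0 : ((0 : Fin (n + 2)) : ℕ) = 0 := rfl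
        rw [v0]
        omega)
      rw [this, hk0, zero_mul]
  · have e0 := hnN 0
    have v0 : ((0 : Fin (n + 2)) : ℕ) = 0 := rfl
    rw [v0] at e0
    rw [e0]
    exact hcart

/-- **The core theorem.** -/
theorem core (n : ℕ) {g : ℝ} (hg : 0 < g) (hg1 : g ≤ 1) :
    ∃ a0 : ℕ, ∀ a : ℕ, a0 ≤ a → ∀ b : ℕ, (a : ℝ) ^ (1 + g) ≤ b → b + 1 ≤ a ^ 2 →
      ∀ lam : Fin (n + 3) → ℕ, Antitone lam → (∀ i, 0 < lam i) → ∑ i, lam i = b * a →
      ∏ i : Fin (n + 2), max 1 ((lam i.succ : ℝ) / a) ≤ (a : ℝ) ^ (1 + g / 16) →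
      (lam 1 : ℝ) ≤ (a : ℝ) ^ (2 + g / 2) →
      plethMult a b (n + 3) lam ≤ plethMult b a (n + 3) lam :=
  core_of (ana_leaf n) (bridge_leaf n) (eqb_leaf n) (wall_leaf n) hg hg1

end Vale.Agent.P181.H403.Asm
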