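import Vale.Agent.P181.H503.TypeAll
import Vale.Agent.P181.Z.H310.EndL

set_option autoImplicit false

/-!
# P181 [QL] (Q3): the region left by the type theorem, with a free parameter `X`
-/

open Finset Filter

namespace Vale.Agent.P181.H403.TypeZ

open Vale.Agent.P181 Vale.Agent.P181.H280
open Vale.Agent.P181.T4 (ex ex_of_lt ex_anti)
open Vale.Agent.P181.T7 (below)

/-- Padding with zero rows. -/
lemma pad_apply {a b n : ℕ} (h : n ≤ a) (lam : Fin n → ℕ) (hanti : Antitone lam) :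
    ∃ mu : Fin a → ℕ, ex mu = ex lam ∧ Antitone mu ∧ ∑ i, mu i = ∑ i, lam i ∧
      plethMult a b a mu = plethMult a b n lam ∧ plethMult b a a mu = plethMult b a n lam := by
  obtain ⟨k, rfl⟩ := Nat.exists_eq_add_of_le h
  refine ⟨fun i => if h : (i : ℕ) < n then lam ⟨i, h⟩ else 0, Z.H310.ex_pad lam, ?_, ?_,
    H530.pad_stmt (n + k) b n k lam, H530.pad_stmt b (n + k) n k lam⟩
  · intro i j hij
    have hij' : (i : ℕ) ≤ j := hij
    dsimp only
    split_ifs with h1 h2 h2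
    · exact hanti (show (⟨i, h2⟩ : Fin n) ≤ ⟨j, h1⟩ from hij')
    · omega
    · exact Nat.zero_le _
    · exact le_rfl
  · rw [Fin.sum_univ_add]
    have h1 : ∑ i : Fin n, (if h : ((Fin.castAdd k i : Fin (n + k)) : ℕ) < n then
        lam ⟨(Fin.castAdd k i : Fin (n + k)), h⟩ else 0) = ∑ i, lam i := by
      apply Finset.sum_congr rfl
      intro i _
      rw [dif_pos (by simp)]
      congr 1
    have h2 : ∑ i : Fin k, (if h : ((Fin.natAdd n i : Fin (n + k)) : ℕ) < n then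
        lam ⟨(Fin.natAdd n i : Fin (n + k)), h⟩ else 0) = 0 := by
      apply Finset.sum_eq_zero
      intro i _
      rw [dif_neg (by simp)]
    rw [h1, h2, add_zero]

/-- the product bound -/
lemma prod_bound {n M m p : ℕ} {A X : ℝ} {f : ℕ → ℝ} (hA : 1 ≤ A) (hX : 1 ≤ X) (hm2 : 2 ≤ m)
    (hmn : m ≤ n + 3) (hf0 : ∀ i, 0 ≤ f i)
    (hbig : ∀ i ∈ Ico 1 m, A * X ^ M ≤ f i) (htop : ∀ i ∈ Ico 1 m, f i ≤ A ^ 2 * X ^ 2)
    (hsmall : ∀ i ∈ Ico m (n + 3), f i ≤ A * X ^ M)
    (hprod : ∏ i ∈ Ico 1 m, min (f i) (A ^ 2) ≤ A ^ m * X ^ M)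
    (hp : M + (M + 2) * (n + 2) ≤ p) :
    ∏ i ∈ Ico 1 (n + 3), max 1 (f i / A) ≤ A * X ^ p := by
  have hA0 : 0 < A := by linarith
  have hX0 : 0 < X := by linarith
  have hXM : 1 ≤ X ^ M := one_le_pow₀ hX
  rw [← Finset.prod_Ico_consecutive _ (show 1 ≤ m by omega) hmn]
  have h1 : ∏ i ∈ Ico 1 m, max 1 (f i / A) ≤ ∏ i ∈ Ico 1 m, (X ^ 2 / A * min (f i) (A ^ 2)) := by
    refine Finset.prod_le_prod (fun i _ => le_trans zero_le_one (le_max_left _ _)) fun i hi => ?_
    have h2 := hbig i hi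
    have h3 := htop i hi
    have h4 : f i ≤ X ^ 2 * min (f i) (A ^ 2) := by
      rcases min_cases (f i) (A ^ 2) with ⟨h5, _⟩ | ⟨h5, _⟩
      · rw [h5]
        have : 1 * f i ≤ X ^ 2 * f i :=
          mul_le_mul_of_nonneg_right (one_le_pow₀ hX) (hf0 i)
        linarith
      · rw [h5]
        linarith
    have h6 : f i / A ≤ X ^ 2 / A * min (f i) (A ^ 2) := by
      rw [div_mul_eq_mul_div]
      exact div_le_div_of_nonneg_right h4 hA0.le
    refine max_le ?_ h6
    refine le_trans ?_ h6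
    rw [le_div_iff₀ hA0]
    calc 1 * A = A * 1 := by ring
      _ ≤ A * X ^ M := by gcongr
      _ ≤ f i := h2
  have h7 : ∏ i ∈ Ico 1 m, (X ^ 2 / A * min (f i) (A ^ 2)) ≤ A * X ^ (2 * (m - 1) + M) := by
    rw [Finset.prod_mul_distrib, Finset.prod_const, Nat.card_Ico]
    calc (X ^ 2 / A) ^ (m - 1) * ∏ i ∈ Ico 1 m, min (f i) (A ^ 2)
        ≤ (X ^ 2 / A) ^ (m - 1) * (A ^ m * X ^ M) := by gcongr
      _ = A * X ^ (2 * (m - 1) + M) := by
          obtain ⟨j, rfl⟩ : ∃ j, m = j + 1 := ⟨m - 1, by omega⟩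
          rw [Nat.add_sub_cancel, div_pow, pow_succ A j, pow_add X (2 * j) M, pow_mul X 2 j]
          field_simp
  have h8 : ∏ i ∈ Ico m (n + 3), max 1 (f i / A) ≤ (X ^ M) ^ (n + 3 - m) := by
    rw [← Nat.card_Ico, ← Finset.prod_const]
    refine Finset.prod_le_prod (fun i _ => le_trans zero_le_one (le_max_left _ _)) fun i hi => ?_
    refine max_le hXM ?_
    rw [div_le_iff₀ hA0, mul_comm]
    exact hsmall i hi
  have h9 : 0 ≤ ∏ i ∈ Ico m (n + 3), max 1 (f i / A) :=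
    Finset.prod_nonneg fun i _ => le_trans zero_le_one (le_max_left _ _)
  calc (∏ i ∈ Ico 1 m, max 1 (f i / A)) * ∏ i ∈ Ico m (n + 3), max 1 (f i / A)
      ≤ (A * X ^ (2 * (m - 1) + M)) * (X ^ M) ^ (n + 3 - m) :=
        mul_le_mul (h1.trans h7) h8 h9 (by positivity)
    _ = A * X ^ (2 * (m - 1) + M + M * (n + 3 - m)) := by
        rw [pow_add X (2 * (m - 1) + M), pow_mul]
        ring
    _ ≤ A * X ^ p := by
        refine mul_le_mul_of_nonneg_left (pow_le_pow_right₀ hX ?_) hA0.le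
        have e1 : M * (n + 3 - m) ≤ M * (n + 2) := Nat.mul_le_mul_left _ (by omega)
        have e2 : (M + 2) * (n + 2) = M * (n + 2) + 2 * (n + 2) := by ring
        omega

/-- **(Q3)** -/
theorem typeZ (n : ℕ) : ∃ (p : ℕ) (c1 : ℝ) (a0 : ℕ), 1 ≤ c1 ∧ ∀ a, a0 ≤ a → ∀ X : ℝ,
    c1 * (1 + Real.log a) ≤ X → X ^ p ≤ a → ∀ b : ℕ, (a : ℝ) * X ^ p ≤ b → b ≤ a ^ 2 →
    ∀ lam : Fin (n + 3) → ℕ, Antitone lam → (∀ i, 0 < lam i) → ∑ i, lam i = b * a →
    (lam 1 : ℝ) ≤ (a : ℝ) ^ 2 * X ^ 2 →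
    plethMult a b (n + 3) lam ≤ plethMult b a (n + 3) lam ∨
      ∏ i : Fin (n + 2), max 1 ((lam i.succ : ℝ) / a) ≤ a * X ^ p := by
  obtain ⟨M, hM⟩ : ∃ M, M = 8 * (n + 3) + 20 := ⟨_, rfl⟩
  refine ⟨M + (M + 2) * (n + 2), 1000000 + (n + 3), max 23 (n + 3), ?_, ?_⟩
  · have : (0 : ℝ) ≤ n := Nat.cast_nonneg n
    linarith
  intro a ha X hX hXp b hb hb2 lam hanti _ hsum hlam1
  have ha23 : 23 ≤ a := (le_max_left _ _).trans ha
  have han : n + 3 ≤ a := (le_max_right _ _).trans ha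
  have hn0 : (0 : ℝ) ≤ n := Nat.cast_nonneg n
  have haR : (23 : ℝ) ≤ a := by exact_mod_cast ha23
  have hlog : 0 ≤ Real.log a := Real.log_nonneg (by linarith)
  have hX1 : (1000000 : ℝ) + (n + 3) ≤ X := by
    refine le_trans ?_ hX
    nlinarith
  have hX1' : (1000000 : ℝ) ≤ X := by linarith
  have hXR : ((n + 3 : ℕ) : ℝ) ≤ X := by
    push_cast
    linarith
  have hlg : 12 * Real.log a ≤ X := by
    refine le_trans ?_ hX
    nlinarith
  have hXone : (1 : ℝ) ≤ X := by linarith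
  have hXMp : X ^ M ≤ X ^ (M + (M + 2) * (n + 2)) := pow_le_pow_right₀ hXone (by omega)
  have hXMa : X ^ M ≤ a := hXMp.trans hXp
  have hbM : (a : ℝ) * X ^ M ≤ b := by
    refine le_trans ?_ hb
    gcongr
  obtain ⟨mu, hmu, hmuanti, hmusum, hm1, hm2⟩ := pad_apply (b := b) han lam hanti
  have hex : ∀ i, ex lam i ≤ ex lam 0 := fun i => ex_anti hanti (Nat.zero_le i)
  have he1 : ex lam 1 = lam 1 := by
    rw [ex_of_lt lam (show 1 < n + 3 by omega)]
    congr 1
  rw [Z.H310.prod_succ_eq (h := n + 2) lam (a : ℝ)]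
  by_cases hF : plethMult a b (n + 3) lam ≤ plethMult b a (n + 3) lam
  · exact Or.inl hF
  refine Or.inr ?_
  have hXM1 : (1 : ℝ) ≤ X ^ M := one_le_pow₀ hXone
  have ha0 : (0 : ℝ) < a := by linarith
  by_cases hone : (a : ℝ) * X ^ M ≤ ex lam 1
  swap
  · -- the second row is short
    rw [not_le] at hone
    have h1 : ∏ i ∈ Ico 1 (n + 3), max 1 ((ex lam i : ℝ) / a) ≤ (X ^ M) ^ (n + 2) := by
      have : (Ico 1 (n + 3)).card = n + 2 := by rw [Nat.card_Ico]; omega
      rw [← this, ← Finset.prod_const]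
      refine Finset.prod_le_prod (fun i _ => le_trans zero_le_one (le_max_left _ _))
        fun i hi => ?_
      refine max_le hXM1 ?_
      rw [div_le_iff₀ ha0, mul_comm]
      refine le_trans ?_ hone.le
      exact_mod_cast ex_anti hanti (Finset.mem_Ico.1 hi).1
    refine h1.trans ?_
    rw [← pow_mul]
    calc X ^ (M * (n + 2)) ≤ X ^ (M + (M + 2) * (n + 2)) := by
          refine pow_le_pow_right₀ hXone ?_
          have : (M + 2) * (n + 2) = M * (n + 2) + 2 * (n + 2) := by ring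
          omega
      _ = 1 * X ^ (M + (M + 2) * (n + 2)) := by ring
      _ ≤ a * X ^ (M + (M + 2) * (n + 2)) := by
          gcongr
          linarith
  · -- the last long row
    classical
    obtain ⟨j0, hj0⟩ : ∃ j0, j0 = Nat.findGreatest (fun j => (a : ℝ) * X ^ M ≤ ex lam j) (n + 2) :=
      ⟨_, rfl⟩
    have hj1 : 1 ≤ j0 := by
      rw [hj0]
      exact Nat.le_findGreatest (by omega) hone
    have hj2 : j0 ≤ n + 2 := by
      rw [hj0]
      exact Nat.findGreatest_le _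
    have hj3 : (a : ℝ) * X ^ M ≤ ex lam j0 := by
      rw [hj0]
      exact Nat.findGreatest_spec (P := fun j => (a : ℝ) * X ^ M ≤ ex lam j)
        (show 1 ≤ n + 2 by omega) hone
    have hj4 : ∀ j, j0 < j → j ≤ n + 2 → ¬ (a : ℝ) * X ^ M ≤ ex lam j := by
      intro j h1 h2
      rw [hj0] at h1
      exact Nat.findGreatest_is_greatest h1 h2
    have hbelow : below (n + 3) mu = 0 := by
      unfold below
      refine Finset.sum_eq_zero fun i hi => ?_
      rw [hmu, ex, dif_neg]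
      have := (Finset.mem_Ico.1 hi).1
      omega
    refine prod_bound (m := j0 + 1) (M := M) (f := fun i => (ex lam i : ℝ)) (by linarith) hXone
      (by omega) (by omega) (fun i => Nat.cast_nonneg _) ?_ ?_ ?_ ?_ le_rfl
    · intro i hi
      refine hj3.trans ?_
      have h1 := (Finset.mem_Ico.1 hi).2
      exact_mod_cast ex_anti hanti (show i ≤ j0 by omega)
    · intro i hi
      have h1 := (Finset.mem_Ico.1 hi).1
      have h2 : (ex lam i : ℝ) ≤ ex lam 1 := by exact_mod_cast ex_anti hanti h1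
      rw [he1] at h2
      exact h2.trans hlam1
    · intro i hi
      have h1 := Finset.mem_Ico.1 hi
      exact (not_le.1 (hj4 i (by omega) (by omega))).le
    · by_contra hcon
      rw [not_le] at hcon
      apply hF
      rw [← hm1, ← hm2]
      refine H503.type_real H503.caseC_nat H503.caseR_nat (R := n + 3) (m := j0 + 1) (M := M)
        (X := X) ha23 (by omega) (by omega) hX1' hXMa hlg hb2 hbM hmuanti
        (by rw [hmusum, hsum, mul_comm]) (by omega) hXR ?_ ?_ ?_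
      · rw [hbelow]
        simp
      · rw [hmu, Nat.add_sub_cancel]
        exact hj3
      · rw [hmu]
        exact hcon.le

end Vale.Agent.P181.H403.TypeZ
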